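import Vale.Agent.P153V.V5
import Vale.Agent.P153V.Stmt
import Vale.Agent.P153D.Bulk
import Vale.Agent.P153.E3

/-! The second moment in a finite domain is bounded by the variogram of the limit. -/

open MeasureTheory Filter Topology

noncomputable section

namespace Vale.Agent.P153V

open Vale.Agent.P153 Vale.Agent.P153D

variable {P : Measure Cfg} [IsProbabilityMeasure P] {D : Finset (ℤ × ℤ)} {ξ : Cfg} {y : ℤ × ℤ}

theorem low_P (h : IsLimit P) (hy : y ∉ D) (hξ : ∀ z ∉ D, ξ z = 0 ∨ ξ z = -1) {S : Finset Cfg}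
    (hS : ∀ k, k ∈ S ↔ k ∈ AdmD D ξ) (x : ℤ × ℤ) : ∑ k ∈ S, ((max (k x) 0 : ℤ) : ℝ) ^ 2 ≤
      S.card * (2 * ∫ k, ((k y - k x : ℤ) : ℝ) ^ 2 ∂P + 2) := by
  have hl : Loc {x, y} fun k : Cfg => ((k y - k x : ℤ) : ℝ) ^ 2 := fun k k' e => by
    simp only [e y (by simp) x (by simp)]
  refine ge_of_tendsto ((((tend_avA h 0 hl).const_mul 2).add_const 2).const_mul (S.card : ℝ)) ?_
  filter_upwards [ev_hexA D 0] with R hR
  refine (low_hex hR hy hξ hS x).trans (mul_le_mul_of_nonneg_left ?_ (Nat.cast_nonneg _))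
  have h0 : (0 : ℝ) < (admA 0 R).card := Nat.cast_pos.2 (card_admA 0 R)
  rw [avA, avA, div_le_iff₀ h0, add_mul, mul_assoc, div_mul_cancel₀ _ h0.ne', Finset.mul_sum,
    mul_comm (2 : ℝ) ((admA 0 R).card : ℝ), ← nsmul_eq_mul, ← Finset.sum_const,
    ← Finset.sum_add_distrib]
  refine Finset.sum_le_sum fun k _ => ?_
  push_cast
  rw [abs_sub_comm, ← sq_abs ((k y : ℝ) - k x)]
  nlinarith [sq_nonneg (|(k y : ℝ) - k x| - 1)]

theorem var_le (h : IsLimit P) (hD : Out D) (hy : y ∉ D) (hξ : ∀ z ∉ D, ξ z = 0 ∨ ξ z = -1)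
    (x : ℤ × ℤ) : avD D ξ (fun k => (2 * (k x : ℝ) + 1) ^ 2) ≤
      36 * ∫ k, ((k y - k x : ℤ) : ℝ) ^ 2 ∂P + 37 := by
  classical
  obtain ⟨hf, hne⟩ := admD_fin hD hξ
  have fl : ∀ {ζ k : Cfg}, k ∈ AdmD D ζ → (fun z => -1 - k z) ∈ AdmD D fun z => -1 - ζ z :=
    fun {ζ k} hk => ⟨fun z => by
      have := hk.1 z
      simp only [abs_le] at this ⊢
      omega, fun z hz => by simp only [hk.2 z hz]⟩
  have inj : Function.Injective fun (k : Cfg) z => -1 - k z := fun a b e => funext fun z => by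
    have := congrFun e z
    simp only at this
    omega
  have h1 := low_P h hy hξ (S := hf.toFinset) (fun k => hf.mem_toFinset) x
  have h2 := low_P h hy (ξ := fun z => -1 - ξ z) (fun z hz => by have := hξ z hz; omega)
    (S := hf.toFinset.image fun k z => -1 - k z) (fun k => by
      simp only [Finset.mem_image, hf.mem_toFinset]
      refine ⟨?_, fun hk => ⟨_, by simpa using fl hk, by simp⟩⟩
      rintro ⟨a, ha, rfl⟩
      exact fl ha) x
  rw [Finset.sum_image fun a _ b _ e => inj e, Finset.card_image_of_injective _ inj] at h2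
  have h0 : (0 : ℝ) < hf.toFinset.card :=
    Nat.cast_pos.2 (Finset.card_pos.2 (hf.toFinset_nonempty.2 hne))
  rw [avD, finsum_mem_eq_finite_toFinset_sum _ hf, Set.ncard_eq_toFinset_card _ hf, div_le_iff₀ h0]
  have h3 : ∑ k ∈ hf.toFinset, (2 * (k x : ℝ) + 1) ^ 2 ≤ ∑ k ∈ hf.toFinset,
      (9 * ((max (k x) 0 : ℤ) : ℝ) ^ 2 + 9 * ((max (-1 - k x) 0 : ℤ) : ℝ) ^ 2 + 1) :=
    Finset.sum_le_sum fun k _ => by
      have : (2 * k x + 1) ^ 2 ≤ 9 * max (k x) 0 ^ 2 + 9 * max (-1 - k x) 0 ^ 2 + 1 := by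
        rcases le_or_gt 0 (k x) with a | a
        · rw [max_eq_left a, max_eq_right (by omega)]
          rcases a.eq_or_lt with b | b
          · rw [← b]; norm_num
          · nlinarith
        · rw [max_eq_right a.le, max_eq_left (by omega)]
          rcases (show k x = -1 ∨ k x ≤ -2 by omega) with b | b
          · rw [b]; norm_num
          · nlinarith
      exact_mod_cast this
  rw [Finset.sum_add_distrib, Finset.sum_add_distrib, ← Finset.mul_sum, ← Finset.mul_sum,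
    Finset.sum_const, nsmul_eq_mul, mul_one] at h3
  linarith

theorem varLe (h : IsLimit P) {σ : ℝ} (hV : LogVar P σ) : VarLe σ := by
  intro ε hε
  have hl : Tendsto (fun n : ℕ => Real.log n) atTop atTop :=
    Real.tendsto_log_atTop.comp tendsto_natCast_atTop_atTop
  have h1 := (hV.const_mul 36).add (hl.const_div_atTop 37)
  have h2 : 36 * (σ ^ 2 / Real.pi) + 0 < 36 * σ ^ 2 / Real.pi + ε := by
    rw [mul_div_assoc]
    linarith
  filter_upwards [h1.eventually (gt_mem_nhds h2), hl.eventually_gt_atTop 0] with n k1 k2 D ξ x hD hξ hy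
  have e := (good_of_lim h).shift {((n : ℤ), 0), 0} (fun k => ((k (n, 0) - k 0 : ℤ) : ℝ) ^ 2)
    (fun k k' e => by simp only [e (n, 0) (by simp) 0 (by simp)]) x
  simp only [add_comm _ x, add_zero] at e
  refine (var_le h hD hy hξ x).trans ?_
  rw [e]
  rw [← mul_div_assoc, ← add_div, div_lt_iff₀ k2] at k1
  exact k1.le

end Vale.Agent.P153V
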